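import Mathlib

/-!
P201: in the group algebra of a torsion-free group, an element whose largest coefficient
valuation is attained at most twice is neither a left nor a right zero divisor.
-/

namespace Vale.Agent.Results.P201.DominantPair

open MonoidAlgebra

/-- A nonempty finite subset of a torsion-free group is not mapped into itself by a
translation by a nontrivial element. -/
theorem exists_translate_notMem {G : Type*} [Group G]
    (tf : ∀ g : G, g ≠ 1 → ∀ n : ℕ, 0 < n → g ^ n ≠ 1) (T : Finset G) (hT : T.Nonempty)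
    (k : G) (hk : k ≠ 1) :
    (∃ t ∈ T, k * t ∉ T) ∧ (∃ t ∈ T, t * k ∉ T) := by
  classical
  obtain ⟨t0, ht0⟩ := hT
  have inj : Function.Injective fun n : ℕ => k ^ n := by
    intro m n h
    have h' : k ^ m = k ^ n := h
    rcases lt_trichotomy m n with hlt | heq | hlt
    · refine absurd ?_ (tf k hk (n - m) (by omega))
      rw [pow_sub k hlt.le, h', mul_inv_cancel]
    · exact heq
    · refine absurd ?_ (tf k hk (m - n) (by omega))
      rw [pow_sub k hlt.le, h', mul_inv_cancel]
  constructor
  · by_contra hne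
    push Not at hne
    have hmem : ∀ n : ℕ, k ^ n * t0 ∈ T := by
      intro n
      induction n with
      | zero => simpa using ht0
      | succ n ih => rw [pow_succ', mul_assoc]; exact hne _ ih
    exact (Set.infinite_range_of_injective
      (f := fun n : ℕ => k ^ n * t0) (fun a b h => inj (mul_right_cancel h)))
      (T.finite_toSet.subset (by rintro _ ⟨n, rfl⟩; exact hmem n))
  · by_contra hne
    push Not at hne
    have hmem : ∀ n : ℕ, t0 * k ^ n ∈ T := by
      intro n
      induction n with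
      | zero => simpa using ht0
      | succ n ih => rw [pow_succ, ← mul_assoc]; exact hne _ ih
    exact (Set.infinite_range_of_injective
      (f := fun n : ℕ => t0 * k ^ n) (fun a b h => inj (mul_left_cancel h)))
      (T.finite_toSet.subset (by rintro _ ⟨n, rfl⟩; exact hmem n))

/-- The set of support elements at which the valuation of the coefficient is largest. -/
noncomputable def top {G K Γ₀ : Type*} [Group G] [Field K] [LinearOrderedCommGroupWithZero Γ₀]
    (v : Valuation K Γ₀) (a : MonoidAlgebra K G) : Finset G :=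
  a.coeff.support.filter fun g => ∀ h ∈ a.coeff.support, v (a.coeff h) ≤ v (a.coeff g)

theorem mem_top {G K Γ₀ : Type*} [Group G] [Field K] [LinearOrderedCommGroupWithZero Γ₀]
    {v : Valuation K Γ₀} {a : MonoidAlgebra K G} {g : G} :
    g ∈ top v a ↔ g ∈ a.coeff.support ∧
      ∀ h ∈ a.coeff.support, v (a.coeff h) ≤ v (a.coeff g) := by
  classical
  simp [top]

theorem top_nonempty {G K Γ₀ : Type*} [Group G] [Field K] [LinearOrderedCommGroupWithZero Γ₀]
    (v : Valuation K Γ₀) {a : MonoidAlgebra K G} (ha : a ≠ 0) : (top v a).Nonempty := by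
  classical
  have hne : a.coeff.support.Nonempty := by
    rw [Finsupp.support_nonempty_iff]
    simpa using ha
  obtain ⟨g, hg, hmax⟩ := Finset.exists_max_image a.coeff.support (fun g => v (a.coeff g)) hne
  exact ⟨g, mem_top.2 ⟨hg, hmax⟩⟩

/-- A product with a uniquely represented top element is nonzero. -/
theorem mul_ne_zero_of_unique {G K Γ₀ : Type*} [Group G] [Field K]
    [LinearOrderedCommGroupWithZero Γ₀]
    (v : Valuation K Γ₀) (a b : MonoidAlgebra K G) (g t : G)
    (hg : g ∈ top v a) (ht : t ∈ top v b)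
    (huniq : ∀ g' ∈ top v a, ∀ t' ∈ top v b, g' * t' = g * t → g' = g) :
    a * b ≠ 0 := by
  classical
  intro hab
  obtain ⟨hgs, hgmax⟩ := mem_top.1 hg
  obtain ⟨hts, htmax⟩ := mem_top.1 ht
  have ha0 : v (a.coeff g) ≠ 0 := by simpa using (Finsupp.mem_support_iff.1 hgs)
  have hb0 : v (b.coeff t) ≠ 0 := by simpa using (Finsupp.mem_support_iff.1 hts)
  have hcoeff : (a * b).coeff (g * t) =
      ∑ i ∈ a.coeff.support, a.coeff i * b.coeff (i⁻¹ * (g * t)) := by
    rw [coeff_mul_apply_left]
    rfl
  have hlt : ∀ i ∈ a.coeff.support \ {g},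
      v (a.coeff i * b.coeff (i⁻¹ * (g * t))) <
        v (a.coeff g * b.coeff (g⁻¹ * (g * t))) := by
    intro i hi
    obtain ⟨his, hine⟩ := Finset.mem_sdiff.1 hi
    rw [Finset.mem_singleton] at hine
    simp only [inv_mul_cancel_left, map_mul]
    by_cases hbs : i⁻¹ * (g * t) ∈ b.coeff.support
    · have h1 := hgmax i his
      have h2 := htmax _ hbs
      rcases h1.lt_or_eq with hl | he
      · calc v (a.coeff i) * v (b.coeff (i⁻¹ * (g * t)))
            ≤ v (a.coeff i) * v (b.coeff t) := mul_le_mul_right h2 _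
          _ < v (a.coeff g) * v (b.coeff t) :=
              mul_lt_mul_of_pos_right hl (zero_lt_iff.2 hb0)
      · have hitop : i ∈ top v a := mem_top.2 ⟨his, fun h hh => he ▸ hgmax h hh⟩
        have hnot : i⁻¹ * (g * t) ∉ top v b := fun hmem =>
          hine (huniq i hitop _ hmem (by group))
        have hl2 : v (b.coeff (i⁻¹ * (g * t))) < v (b.coeff t) := by
          refine lt_of_le_of_ne h2 fun he2 => hnot (mem_top.2 ⟨hbs, fun h hh => ?_⟩)
          exact he2 ▸ htmax h hh
        rw [he]
        exact mul_lt_mul_of_pos_left hl2 (zero_lt_iff.2 ha0)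
    · rw [Finsupp.notMem_support_iff.1 hbs, map_zero, mul_zero]
      exact zero_lt_iff.2 (mul_ne_zero ha0 hb0)
  have hsum := v.map_sum_eq_of_lt (f := fun i => a.coeff i * b.coeff (i⁻¹ * (g * t))) hgs hlt
  rw [← hcoeff, hab] at hsum
  simp only [coeff_zero, Finsupp.zero_apply, map_zero, map_mul, inv_mul_cancel_left] at hsum
  exact mul_ne_zero ha0 hb0 hsum.symm

/-- If the largest valuation is attained at most twice, there are no products equal to zero. -/
theorem mul_ne_zero_of_top_card {G K Γ₀ : Type*} [Group G] [Field K]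
    [LinearOrderedCommGroupWithZero Γ₀]
    (tf : ∀ g : G, g ≠ 1 → ∀ n : ℕ, 0 < n → g ^ n ≠ 1)
    (v : Valuation K Γ₀) (a b : MonoidAlgebra K G) (ha : a ≠ 0) (hb : b ≠ 0)
    (hcard : (top v a).card ≤ 2) : a * b ≠ 0 ∧ b * a ≠ 0 := by
  classical
  obtain ⟨g, hg⟩ := top_nonempty v ha
  obtain ⟨t, ht⟩ := top_nonempty v hb
  by_cases hone : ∀ g' ∈ top v a, g' = g
  · refine ⟨mul_ne_zero_of_unique v a b g t hg ht fun g' hg' _ _ _ => hone g' hg',
      mul_ne_zero_of_unique v b a t g ht hg fun t' _ g' hg' he => ?_⟩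
    rw [hone g' hg'] at he
    exact mul_right_cancel he
  · push Not at hone
    obtain ⟨h, hh, hhg⟩ := hone
    have htwo : ∀ x ∈ top v a, x = g ∨ x = h := by
      intro x hx
      by_contra hx'
      push Not at hx'
      have hsub : ({g, h, x} : Finset G) ⊆ top v a := by
        simp [Finset.insert_subset_iff, hg, hh, hx]
      have h3 : ({g, h, x} : Finset G).card = 3 := by
        rw [Finset.card_eq_three]
        exact ⟨g, h, x, Ne.symm hhg, Ne.symm hx'.1, Ne.symm hx'.2, rfl⟩
      have := Finset.card_le_card hsub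
      omega
    constructor
    · have hk : h⁻¹ * g ≠ 1 := fun he => hhg (inv_mul_eq_one.1 he)
      obtain ⟨s, hs, hsn⟩ := (exists_translate_notMem tf (top v b) ⟨t, ht⟩ _ hk).1
      refine mul_ne_zero_of_unique v a b g s hg hs fun g' hg' s' hs' he => ?_
      rcases htwo g' hg' with rfl | rfl
      · rfl
      · exact absurd (by rwa [show g'⁻¹ * g * s = s' by rw [mul_assoc, ← he]; group]) hsn
    · have hk : g * h⁻¹ ≠ 1 := fun he => hhg (mul_inv_eq_one.1 he).symm
      obtain ⟨s, hs, hsn⟩ := (exists_translate_notMem tf (top v b) ⟨t, ht⟩ _ hk).2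
      refine mul_ne_zero_of_unique v b a s g hs hg fun s' hs' g' hg' he => ?_
      rcases htwo g' hg' with rfl | rfl
      · exact mul_right_cancel he
      · exact absurd (by rwa [show s * (g * g'⁻¹) = s' by rw [← mul_assoc, ← he]; group]) hsn

/-- Rational three-term zero divisors have coefficients of equal absolute value. -/
theorem three_term_rat {G : Type*} [Group G]
    (tf : ∀ g : G, g ≠ 1 → ∀ n : ℕ, 0 < n → g ^ n ≠ 1)
    (a b : MonoidAlgebra ℚ G) (ha : a ≠ 0) (hb : b ≠ 0)
    (hsupp : a.coeff.support.card ≤ 3) (h0 : a * b = 0 ∨ b * a = 0) :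
    ∀ g ∈ a.coeff.support, ∀ h ∈ a.coeff.support, |a.coeff g| = |a.coeff h| := by
  classical
  have key : ∀ p : ℕ, p.Prime → ∀ g ∈ a.coeff.support, ∀ h ∈ a.coeff.support,
      padicValRat p (a.coeff g) = padicValRat p (a.coeff h) := by
    intro p hp
    have : Fact p.Prime := ⟨hp⟩
    let v := Rat.padicValuation p
    have hall : top v a = a.coeff.support := by
      refine Finset.eq_of_subset_of_card_le (Finset.filter_subset _ _) ?_
      by_contra hlt
      obtain ⟨h1, h2⟩ := mul_ne_zero_of_top_card tf v a b ha hb (by omega)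
      exact h0.elim h1 h2
    intro g hg h hh
    have e1 := (mem_top.1 (hall ▸ hg : g ∈ top v a)).2 h hh
    have e2 := (mem_top.1 (hall ▸ hh : h ∈ top v a)).2 g hg
    have := le_antisymm e1 e2
    have hg0 := Finsupp.mem_support_iff.1 hg
    have hh0 := Finsupp.mem_support_iff.1 hh
    simp [v, Rat.padicValuation, hg0, hh0] at this
    omega
  intro g hg h hh
  have hg0 := Finsupp.mem_support_iff.1 hg
  have hh0 := Finsupp.mem_support_iff.1 hh
  set r := a.coeff g / a.coeff h with hr
  have hr0 : r ≠ 0 := div_ne_zero hg0 hh0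
  have hval : ∀ p : ℕ, p.Prime → padicValRat p r = 0 := by
    intro p hp
    have : Fact p.Prime := ⟨hp⟩
    rw [hr, padicValRat.div hg0 hh0, key p hp g hg h hh, sub_self]
  have hnum : r.num.natAbs = 1 := by
    by_contra hne
    obtain ⟨p, hp, hdvd⟩ := Nat.exists_prime_and_dvd hne
    have : Fact p.Prime := ⟨hp⟩
    have hden : ¬ p ∣ r.den := fun hd =>
      hp.one_lt.ne' (Nat.eq_one_of_dvd_one (r.reduced ▸ Nat.dvd_gcd hdvd hd))
    have h1 := hval p hp
    rw [padicValRat_def, padicValNat.eq_zero_of_not_dvd hden, Nat.cast_zero, sub_zero] at h1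
    have h2 : 1 ≤ padicValInt p r.num := by
      unfold padicValInt
      exact one_le_padicValNat_of_dvd (Int.natAbs_ne_zero.2 (Rat.num_ne_zero.2 hr0)) hdvd
    omega
  have hden : r.den = 1 := by
    by_contra hne
    obtain ⟨p, hp, hdvd⟩ := Nat.exists_prime_and_dvd hne
    have : Fact p.Prime := ⟨hp⟩
    have h1 := hval p hp
    have h2 : 1 ≤ padicValNat p r.den := one_le_padicValNat_of_dvd r.den_nz hdvd
    rw [padicValRat_def, padicValInt, hnum, padicValNat_one_right] at h1
    omega
  have habs : |r| = 1 := by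
    rw [← Rat.num_div_den r, hden]
    rcases Int.natAbs_eq r.num with e | e <;> rw [e, hnum] <;> simp
  rw [hr, abs_div, div_eq_one_iff_eq (abs_ne_zero.2 hh0)] at habs
  exact habs

/-- The main statement. -/
theorem result :
    (∀ (G : Type) [Group G], (∀ g : G, g ≠ 1 → ∀ n : ℕ, 0 < n → g ^ n ≠ 1) →
      ∀ (K : Type) [Field K] (Γ₀ : Type) [LinearOrderedCommGroupWithZero Γ₀]
        (v : Valuation K Γ₀) (α β : MonoidAlgebra K G), α ≠ 0 →
        Set.ncard {g : G | α.coeff g ≠ 0 ∧ ∀ h, v (α.coeff h) ≤ v (α.coeff g)} ≤ 2 →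
        (α * β = 0 ∨ β * α = 0) → β = 0) ∧
    (∀ (G : Type) [Group G], (∀ g : G, g ≠ 1 → ∀ n : ℕ, 0 < n → g ^ n ≠ 1) →
      ∀ (α β : MonoidAlgebra ℚ G), α ≠ 0 → β ≠ 0 → α.coeff.support.card ≤ 3 →
        (α * β = 0 ∨ β * α = 0) →
        ∀ g ∈ α.coeff.support, ∀ h ∈ α.coeff.support, |α.coeff g| = |α.coeff h|) := by
  refine ⟨fun G _ tf K _ Γ₀ _ v α β hα hcard h0 => ?_,
    fun G _ tf α β hα hβ hs h0 => three_term_rat tf α β hα hβ hs h0⟩
  classical
  by_contra hβ
  have hset : {g : G | α.coeff g ≠ 0 ∧ ∀ h, v (α.coeff h) ≤ v (α.coeff g)} = ↑(top v α) := by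
    ext g
    simp only [Set.mem_ofPred_eq, Finset.mem_coe, mem_top, Finsupp.mem_support_iff]
    refine and_congr_right fun _ => ⟨fun h x _ => h x, fun h x => ?_⟩
    by_cases hx : α.coeff x = 0
    · simp [hx]
    · exact h x hx
  rw [hset, Set.ncard_coe_finset] at hcard
  obtain ⟨h1, h2⟩ := mul_ne_zero_of_top_card tf v α β hα hβ hcard
  exact h0.elim h1 h2

end Vale.Agent.Results.P201.DominantPair
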